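import Vale.Agent.P235.H555.Minor
import Vale.Agent.P235.R2.H802.Genus
import Vale.Agent.P235.H205.Grid.PlanarStmt

/-!
# P235: a graph with a drawing in the plane has a plane rotation system

The grid has a plane rotation system (`plane_grid`); every planar graph (drawing in the plane) is a
minor of a grid (helper205); a connected minor with at least two vertices of a connected plane graph
is plane (helper555).
-/

set_option linter.all false

namespace Vale.Agent.P235.ST.H172

open SimpleGraph Vale.Agent.P235.H134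

/-- the next present direction -/
def nx (e : Fin 4 → Bool) (i : Fin 4) : Fin 4 :=
  if e (i + 1) then i + 1 else if e (i + 2) then i + 2 else if e (i + 3) then i + 3 else i

theorem nx_mem' : ∀ (a b c d : Bool) (i : Fin 4), (![a, b, c, d] : Fin 4 → Bool) i = true →
    (![a, b, c, d] : Fin 4 → Bool) (nx ![a, b, c, d] i) = true := by decide

theorem nx_inj' : ∀ (a b c d : Bool) (i j : Fin 4), (![a, b, c, d] : Fin 4 → Bool) i = true →
    (![a, b, c, d] : Fin 4 → Bool) j = true → nx ![a, b, c, d] i = nx ![a, b, c, d] j → i = j := by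
  decide

theorem nx_cyc' : ∀ (a b c d : Bool) (i j : Fin 4), (![a, b, c, d] : Fin 4 → Bool) i = true →
    (![a, b, c, d] : Fin 4 → Bool) j = true → ∃ k : Fin 4, (nx ![a, b, c, d])^[k.val] i = j := by
  decide

/-- the present directions at a vertex of the grid: east, north, west, south -/
def ex (r x y : ℕ) : Fin 4 → Bool :=
  ![decide (x + 1 < r), decide (y + 1 < r), decide (1 ≤ x), decide (1 ≤ y)]

/-- the neighbour in a direction -/
def tg (x y : ℕ) : Fin 4 → ℕ × ℕ := ![(x + 1, y), (x, y + 1), (x - 1, y), (x, y - 1)]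

/-- the cell on the right-hand side -/
def lab (r x y : ℕ) : Fin 4 → Option (ℕ × ℕ) :=
  ![if 1 ≤ y then some (x, y - 1) else none, if x + 1 < r then some (x, y) else none,
    if y + 1 < r then some (x - 1, y) else none, if 1 ≤ x then some (x - 1, y - 1) else none]

theorem tg_lt {r x y : ℕ} (hx : x < r) (hy : y < r) {i : Fin 4} (h : ex r x y i = true) :
    (tg x y i).1 < r ∧ (tg x y i).2 < r := by
  fin_cases i <;> simp [ex, tg] at h ⊢ <;> omega

theorem adj_iff {r : ℕ} {p q : Fin r × Fin r} : (grid r).Adj p q ↔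
    ((p.1.val + 1 = q.1.val ∨ q.1.val + 1 = p.1.val) ∧ p.2.val = q.2.val) ∨
    ((p.2.val + 1 = q.2.val ∨ q.2.val + 1 = p.2.val) ∧ p.1.val = q.1.val) := by
  unfold grid
  rw [boxProd_adj, pathGraph_adj, pathGraph_adj, Fin.ext_iff, Fin.ext_iff]

/-- the dart at `p` in the direction `i` -/
def mk {r : ℕ} (p : Fin r × Fin r) (i : Fin 4) (h : ex r p.1 p.2 i = true) : (grid r).Dart where
  fst := p
  snd := (⟨(tg p.1 p.2 i).1, (tg_lt p.1.2 p.2.2 h).1⟩, ⟨(tg p.1 p.2 i).2, (tg_lt p.1.2 p.2.2 h).2⟩)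
  adj := by
    rw [adj_iff]
    show ((p.1.val + 1 = (tg p.1 p.2 i).1 ∨ (tg p.1 p.2 i).1 + 1 = p.1.val) ∧
      p.2.val = (tg p.1 p.2 i).2) ∨ ((p.2.val + 1 = (tg p.1 p.2 i).2 ∨
      (tg p.1 p.2 i).2 + 1 = p.2.val) ∧ p.1.val = (tg p.1 p.2 i).1)
    fin_cases i <;> simp [ex, tg] at h ⊢ <;> omega

/-- the direction of a dart -/
def dir {r : ℕ} (d : (grid r).Dart) : Fin 4 :=
  if d.fst.1.val + 1 = d.snd.1.val then 0 else if d.fst.2.val + 1 = d.snd.2.val then 1
  else if d.snd.1.val + 1 = d.fst.1.val then 2 else 3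

theorem dir_mk {r : ℕ} (p : Fin r × Fin r) (i : Fin 4) (h : ex r p.1 p.2 i = true) :
    dir (mk p i h) = i := by
  show (if p.1.val + 1 = (tg p.1 p.2 i).1 then (0 : Fin 4) else
    if p.2.val + 1 = (tg p.1 p.2 i).2 then 1 else
    if (tg p.1 p.2 i).1 + 1 = p.1.val then 2 else 3) = i
  fin_cases i
  · simp [tg]
  · simp [tg]
  · have h1 : 1 ≤ p.1.val := by simpa [ex] using h
    have a : ¬ (p.1.val + 1 = p.1.val - 1) := by omega
    have b : p.1.val - 1 + 1 = p.1.val := by omega
    simp [tg, a, b]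
  · have h1 : 1 ≤ p.2.val := by simpa [ex] using h
    have a : ¬ (p.2.val + 1 = p.2.val - 1) := by omega
    simp [tg, a]

theorem ex_dir {r : ℕ} (d : (grid r).Dart) : ex r d.fst.1 d.fst.2 (dir d) = true := by
  have h := adj_iff.1 d.adj
  have h1 := d.snd.1.2
  have h2 := d.snd.2.2
  have h3 := d.fst.1.2
  have h4 := d.fst.2.2
  unfold dir
  split_ifs <;> simp [ex] <;> omega

theorem snd_eq {r : ℕ} (d : (grid r).Dart) :
    d.snd.1.val = (tg d.fst.1 d.fst.2 (dir d)).1 ∧ d.snd.2.val = (tg d.fst.1 d.fst.2 (dir d)).2 := by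
  have h := adj_iff.1 d.adj
  unfold dir
  split_ifs <;> simp [tg] <;> omega

theorem mk_dir {r : ℕ} (d : (grid r).Dart) : mk d.fst (dir d) (ex_dir d) = d := by
  apply Dart.ext
  apply Prod.ext
  · rfl
  · apply Prod.ext
    · exact Fin.ext (snd_eq d).1.symm
    · exact Fin.ext (snd_eq d).2.symm

theorem mk_congr {r : ℕ} {p p' : Fin r × Fin r} {i i' : Fin 4} (h : ex r p.1 p.2 i = true)
    (h' : ex r p'.1 p'.2 i' = true) (hp : p = p') (hi : i = i') : mk p i h = mk p' i' h' := by
  subst hp; subst hi; rfl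

theorem dart_ext {r : ℕ} {d d' : (grid r).Dart} (h1 : d.fst = d'.fst) (h2 : dir d = dir d') :
    d = d' := by
  rw [← mk_dir d, ← mk_dir d']
  exact mk_congr _ _ h1 h2

/-- the rotation, as a function -/
def rot0 {r : ℕ} (d : (grid r).Dart) : (grid r).Dart :=
  mk d.fst (nx (ex r d.fst.1 d.fst.2) (dir d)) (nx_mem' _ _ _ _ _ (ex_dir d))

theorem rot0_fst {r : ℕ} (d : (grid r).Dart) : (rot0 d).fst = d.fst := rfl

theorem rot0_dir {r : ℕ} (d : (grid r).Dart) :
    dir (rot0 d) = nx (ex r d.fst.1 d.fst.2) (dir d) := dir_mk _ _ _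

theorem rot0_inj {r : ℕ} : Function.Injective (rot0 (r := r)) := by
  intro d d' h
  have h1 : d.fst = d'.fst := by rw [← rot0_fst d, ← rot0_fst d', h]
  have h2 : nx (ex r d.fst.1 d.fst.2) (dir d) = nx (ex r d'.fst.1 d'.fst.2) (dir d') := by
    rw [← rot0_dir, ← rot0_dir, h]
  refine dart_ext h1 ?_
  have h3 := ex_dir d'
  rw [← h1] at h2 h3
  exact nx_inj' _ _ _ _ _ _ (ex_dir d) h3 h2

/-- the rotation -/
noncomputable def rot (r : ℕ) : Equiv.Perm (grid r).Dart :=
  Equiv.ofBijective rot0 (by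
    have : Finite (grid r).Dart := Tight.fin_dart
    exact Finite.injective_iff_bijective.1 rot0_inj)

theorem rot_apply {r : ℕ} (d : (grid r).Dart) : rot r d = rot0 d := rfl

theorem rot_iter {r : ℕ} (d : (grid r).Dart) (k : ℕ) : ((rot r ^ k) d).fst = d.fst ∧
    dir ((rot r ^ k) d) = (nx (ex r d.fst.1 d.fst.2))^[k] (dir d) := by
  induction k with
  | zero => exact ⟨rfl, rfl⟩
  | succ k ih =>
    rw [pow_succ', Equiv.Perm.mul_apply, rot_apply, rot0_fst, rot0_dir, ih.1, ih.2,
      Function.iterate_succ_apply']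
    exact ⟨rfl, rfl⟩

theorem rot_cyc {r : ℕ} (d d' : (grid r).Dart) (h : d.fst = d'.fst) : (rot r).SameCycle d d' := by
  have h3 := ex_dir d'
  rw [← h] at h3
  obtain ⟨k, hk⟩ := nx_cyc' _ _ _ _ _ _ (ex_dir d) h3
  refine ⟨(k.val : ℤ), ?_⟩
  rw [zpow_natCast]
  refine dart_ext ((rot_iter d k.val).1.trans h) ?_
  rw [(rot_iter d k.val).2]
  exact hk

/-! ### labels -/

/-- the face label of a dart -/
def L {r : ℕ} (d : (grid r).Dart) : Option (ℕ × ℕ) := lab r d.fst.1 d.fst.2 (dir d)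

theorem dir_symm {r : ℕ} (d : (grid r).Dart) : dir d.symm = dir d + 2 := by
  have h := adj_iff.1 d.adj
  have e1 : d.symm.fst = d.snd := rfl
  have e2 : d.symm.snd = d.fst := rfl
  unfold dir
  rw [e1, e2]
  split_ifs <;> first | rfl | omega

theorem step0 {r x y : ℕ} (hx : x + 1 < r) (hy : y < r) :
    lab r (x + 1) y (nx (ex r (x + 1) y) 2) = lab r x y 0 := by
  by_cases h3 : 1 ≤ y
  · have e : nx (ex r (x + 1) y) 2 = 3 := by simp [nx, ex, h3]
    rw [e]; simp [lab, h3]
  by_cases h0 : x + 1 + 1 < r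
  · have e : nx (ex r (x + 1) y) 2 = 0 := by simp [nx, ex, h3, h0]
    rw [e]; simp [lab, h3]
  by_cases h1 : y + 1 < r
  · have e : nx (ex r (x + 1) y) 2 = 1 := by simp [nx, ex, h3, h0, h1]
    rw [e]; simp [lab, h3, h0]
  · have e : nx (ex r (x + 1) y) 2 = 2 := by simp [nx, ex, h3, h0, h1]
    rw [e]; simp [lab, h3, h1]

theorem step1 {r x y : ℕ} (hx : x < r) (hy : y + 1 < r) :
    lab r x (y + 1) (nx (ex r x (y + 1)) 3) = lab r x y 1 := by
  by_cases h3 : x + 1 < r
  · have e : nx (ex r x (y + 1)) 3 = 0 := by simp [nx, ex, h3]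
    rw [e]; simp [lab, h3]
  by_cases h0 : y + 1 + 1 < r
  · have e : nx (ex r x (y + 1)) 3 = 1 := by simp [nx, ex, h3, h0]
    rw [e]; simp [lab, h3]
  by_cases h1 : 1 ≤ x
  · have e : nx (ex r x (y + 1)) 3 = 2 := by simp [nx, ex, h3, h0, h1]
    rw [e]; simp [lab, h3, h0]
  · have e : nx (ex r x (y + 1)) 3 = 3 := by simp [nx, ex, h3, h0, h1]
    rw [e]; simp [lab, h3, h1]

theorem step2 {r x y : ℕ} (hx : x + 1 < r) (hy : y < r) :
    lab r x y (nx (ex r x y) 0) = lab r (x + 1) y 2 := by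
  by_cases h3 : y + 1 < r
  · have e : nx (ex r x y) 0 = 1 := by simp [nx, ex, h3]
    rw [e]; simp [lab, h3, hx]
  by_cases h0 : 1 ≤ x
  · have e : nx (ex r x y) 0 = 2 := by simp [nx, ex, h3, h0]
    rw [e]; simp [lab, h3]
  by_cases h1 : 1 ≤ y
  · have e : nx (ex r x y) 0 = 3 := by simp [nx, ex, h3, h0, h1]
    rw [e]; simp [lab, h3, h0]
  · have e : nx (ex r x y) 0 = 0 := by simp [nx, ex, h3, h0, h1]
    rw [e]; simp [lab, h3, h1]

theorem step3 {r x y : ℕ} (hx : x < r) (hy : y + 1 < r) :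
    lab r x y (nx (ex r x y) 1) = lab r x (y + 1) 3 := by
  by_cases h3 : 1 ≤ x
  · have e : nx (ex r x y) 1 = 2 := by simp [nx, ex, h3]
    rw [e]; simp [lab, h3, hy]
  by_cases h0 : 1 ≤ y
  · have e : nx (ex r x y) 1 = 3 := by simp [nx, ex, h3, h0]
    rw [e]; simp [lab, h3]
  by_cases h1 : x + 1 < r
  · have e : nx (ex r x y) 1 = 0 := by simp [nx, ex, h3, h0, h1]
    rw [e]; simp [lab, h3, h0]
  · have e : nx (ex r x y) 1 = 1 := by simp [nx, ex, h3, h0, h1]
    rw [e]; simp [lab, h3, h1]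

theorem L_step {r : ℕ} (d : (grid r).Dart) : L (faceNext (rot r) d) = L d := by
  have e0 : faceNext (rot r) d = rot0 d.symm := rfl
  have e1 : d.symm.fst = d.snd := rfl
  have hs := snd_eq d
  have he := ex_dir d
  rw [e0]
  unfold L
  rw [rot0_fst, rot0_dir, dir_symm, e1, hs.1, hs.2]
  have h3 := d.fst.1.2
  have h4 := d.fst.2.2
  revert he
  generalize dir d = i
  generalize d.fst.1.val = x at *
  generalize d.fst.2.val = y at *
  intro he
  clear hs
  fin_cases i
  · have hx : x + 1 < r := by simpa [ex] using he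
    exact step0 hx h4
  · have hy : y + 1 < r := by simpa [ex] using he
    exact step1 h3 hy
  · have hx : 1 ≤ x := by simpa [ex] using he
    obtain ⟨x, rfl⟩ := Nat.exists_eq_succ_of_ne_zero (by omega : x ≠ 0)
    exact step2 h3 h4
  · have hy : 1 ≤ y := by simpa [ex] using he
    obtain ⟨y, rfl⟩ := Nat.exists_eq_succ_of_ne_zero (by omega : y ≠ 0)
    exact step3 h3 h4

/-! ### counting -/

theorem s_eq {α : Type} {a b c d : α} (h1 : a = c) (h2 : b = d) : s(a, b) = s(c, d) := by
  rw [h1, h2]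

theorem s_eq' {α : Type} {a b c d : α} (h1 : a = d) (h2 : b = c) : s(a, b) = s(c, d) := by
  rw [h1, h2, Sym2.eq_swap]

theorem card_edges_le (r : ℕ) : Nat.card (grid r).edgeSet ≤ (r - 1) * r + r * (r - 1) := by
  classical
  have hlt : ∀ {a : Fin (r - 1)}, a.val + 1 < r := fun {a} => by have := a.2; omega
  let f : (Fin (r - 1) × Fin r) ⊕ (Fin r × Fin (r - 1)) → (grid r).edgeSet := fun z =>
    match z with
    | Sum.inl (a, b) => ⟨s((⟨a.val, by have := a.2; omega⟩, b), (⟨a.val + 1, by have := a.2; omega⟩, b)),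
        (grid r).mem_edgeSet.2 (adj_iff.2 (Or.inl ⟨Or.inl rfl, rfl⟩))⟩
    | Sum.inr (a, b) => ⟨s((a, ⟨b.val, by have := b.2; omega⟩), (a, ⟨b.val + 1, by have := b.2; omega⟩)),
        (grid r).mem_edgeSet.2 (adj_iff.2 (Or.inr ⟨Or.inl rfl, rfl⟩))⟩
  have hf : Function.Surjective f := by
    rintro ⟨e, he⟩
    induction e using Sym2.ind with
    | _ p q =>
      have h := adj_iff.1 ((grid r).mem_edgeSet.1 he)
      have p1 := p.1.2
      have p2 := p.2.2
      have q1 := q.1.2
      have q2 := q.2.2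
      rcases h with ⟨h1 | h1, h2⟩ | ⟨h1 | h1, h2⟩
      · refine ⟨Sum.inl (⟨p.1.val, by omega⟩, p.2), Subtype.ext ?_⟩
        exact s_eq rfl (Prod.ext (Fin.ext h1) (Fin.ext h2))
      · refine ⟨Sum.inl (⟨q.1.val, by omega⟩, q.2), Subtype.ext ?_⟩
        exact s_eq' rfl (Prod.ext (Fin.ext h1) (Fin.ext h2.symm))
      · refine ⟨Sum.inr (p.1, ⟨p.2.val, by omega⟩), Subtype.ext ?_⟩
        exact s_eq rfl (Prod.ext (Fin.ext h2) (Fin.ext h1))
      · refine ⟨Sum.inr (q.1, ⟨q.2.val, by omega⟩), Subtype.ext ?_⟩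
        exact s_eq' rfl (Prod.ext (Fin.ext h2.symm) (Fin.ext h1))
  have h1 := Nat.card_le_card_of_surjective f hf
  have h2 : Nat.card ((Fin (r - 1) × Fin r) ⊕ (Fin r × Fin (r - 1))) =
      (r - 1) * r + r * (r - 1) := by
    rw [Nat.card_sum, Nat.card_prod, Nat.card_prod]
    simp
  omega

theorem card_faces_ge {r : ℕ} (hr : 2 ≤ r) : (r - 1) * (r - 1) + 1 ≤
    Nat.card (Quotient (Equiv.Perm.SameCycle.setoid (faceNext (rot r)))) := by
  classical
  have hfin : Finite (grid r).Dart := Tight.fin_dart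
  have hx : ∀ a : Fin (r - 1), a.val < r := fun a => by have := a.2; omega
  have he : ∀ z : Fin (r - 1) × Fin (r - 1), ex r z.1.val z.2.val 1 = true := fun z => by
    have := z.2.2
    simp [ex]; omega
  have he0 : ex r 0 0 0 = true := by simp [ex]; omega
  let dd : Option (Fin (r - 1) × Fin (r - 1)) → (grid r).Dart := fun o =>
    match o with
    | none => mk (⟨0, by omega⟩, ⟨0, by omega⟩) 0 he0
    | some z => mk (⟨z.1.val, hx z.1⟩, ⟨z.2.val, hx z.2⟩) 1 (he z)
  have hL : ∀ o, L (dd o) = o.map (fun z => (z.1.val, z.2.val)) := by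
    intro o
    cases o with
    | none =>
      show lab r 0 0 (dir (mk _ 0 he0)) = none
      rw [dir_mk]
      simp [lab]
    | some z =>
      show lab r z.1.val z.2.val (dir (mk _ 1 (he z))) = some (z.1.val, z.2.val)
      rw [dir_mk]
      have := z.1.2
      have h : z.1.val + 1 < r := by omega
      simp [lab, h]
  let g : Option (Fin (r - 1) × Fin (r - 1)) →
      Quotient (Equiv.Perm.SameCycle.setoid (faceNext (rot r))) := fun o => Quotient.mk _ (dd o)
  have hg : Function.Injective g := by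
    intro o o' h
    have h1 : (faceNext (rot r)).SameCycle (dd o) (dd o') := Quotient.exact h
    have h2 := Tight.cyc_const (f := faceNext (rot r)) (c := L) L_step h1
    rw [hL, hL] at h2
    refine Option.map_injective ?_ h2
    intro z z' hz
    exact Prod.ext (Fin.ext (congrArg Prod.fst hz)) (Fin.ext (congrArg Prod.snd hz))
  have h1 := Nat.card_le_card_of_injective g hg
  have h2 : Nat.card (Option (Fin (r - 1) × Fin (r - 1))) = (r - 1) * (r - 1) + 1 := by
    rw [Finite.card_option, Nat.card_prod]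
    simp
  omega

/-- the grid is plane -/
theorem plane_grid {r : ℕ} (hr : 2 ≤ r) : PlaneMap (grid r) (rot r) := by
  refine Tight.plane_of_le (grid_connected (by omega)) (fun d => rot0_fst d) rot_cyc ?_
  have h1 := card_edges_le r
  have h2 := card_faces_ge hr
  have h3 : Nat.card (Fin r × Fin r) = r * r := by
    rw [Nat.card_prod]
    simp
  rw [h3]
  obtain ⟨k, rfl⟩ : ∃ k, r = k + 2 := ⟨r - 2, by omega⟩
  have e : k + 2 - 1 = k + 1 := by omega
  rw [e] at h1 h2
  nlinarith

/-! ### planar graphs -/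

/-- A planar graph (drawing in the plane) has a plane rotation system. -/
theorem plane_of_planar {W : Type} [Finite W] {H : SimpleGraph W} (hc : H.Connected)
    (h2 : 2 ≤ Nat.card W) (hp : Planar H) : ∃ σ : Equiv.Perm H.Dart, PlaneMap H σ := by
  obtain ⟨r, hr, hm⟩ := H205.planar W H hp
  have hr2 : 2 ≤ r := by
    by_contra hcon
    have hr1 : r = 1 := by omega
    subst hr1
    obtain ⟨μ, a1, a2, -⟩ := hm
    have : Nontrivial W := (Finite.one_lt_card_iff_nontrivial).1 (by omega)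
    obtain ⟨a, b, hab⟩ := exists_pair_ne W
    obtain ⟨x, hx⟩ := (a1 a).nonempty
    obtain ⟨y, hy⟩ := (a1 b).nonempty
    have hxy : x = y := Subsingleton.elim x y
    rw [hxy] at hx
    exact Set.disjoint_left.1 (a2 a b hab) hx hy
  exact H555.planeMap_of_isMinor (grid_connected hr) hc h2 hm ⟨rot r, plane_grid hr2⟩

/-- A bound for plane maps is a bound for all planar graphs. -/
theorem planar_of_plane {C : ℝ}
    (h : ∀ (V : Type) [Finite V] (G : SimpleGraph V), G.Connected →
      (∃ σ : Equiv.Perm G.Dart, PlaneMap G σ) → DistortionLE G C) :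
    ∀ (V : Type) [Finite V] (G : SimpleGraph V), G.Connected → Planar G → DistortionLE G C := by
  intro V _ G hc hp
  rcases le_or_gt 2 (Nat.card V) with h2 | h2
  · exact h V G hc (plane_of_planar hc h2 hp)
  · have : Subsingleton V := Finite.card_le_one_iff_subsingleton.1 (by omega)
    intro ℓ hℓ
    refine ⟨PUnit, ⊤, 0, fun _ => 0, fun x y => ?_⟩
    have h1 : pathDist G ℓ x y = 0 := by
      rw [Subsingleton.elim y x]
      exact (pathDist_isMet hc hℓ).self x
    rw [h1]
    simp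

end Vale.Agent.P235.ST.H172
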